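import Vale.Agent.P248.Basic

/-!
P248: the symmetric Mahler inequality is equivalent to its asymptotic form.
-/

namespace Vale.Agent.Results.P248.AsymptoticReduction

open Vale.Agent.P248

/-- The symmetric Mahler inequality in all dimensions is equivalent to its asymptotic form. -/
theorem result :
    (∀ n : ℕ, 1 ≤ n → ∀ K : Set (Fin n → ℝ), IsSymBody K →
        4 ^ n / (n.factorial : ℝ) ≤ volProd K) ↔
    (∀ ε : ℝ, 0 < ε → ε < 1 → ∃ N, ∀ n, N ≤ n → ∀ K : Set (Fin n → ℝ), IsSymBody K →
        (1 - ε) ^ n * (4 ^ n / n.factorial) ≤ volProd K) :=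
  ⟨fun h _ε _ _ => ⟨1, fun n hn K hK => le_trans
      (mul_le_of_le_one_left (by positivity) (pow_le_one₀ (by linarith) (by linarith)))
      (h n hn K hK)⟩,
    mahler_of_asymptotic⟩

end Vale.Agent.Results.P248.AsymptoticReduction
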